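import Vale.Agent.P132.H8.St

/-!
# P132: averages of almost intertwining elements
-/

open Filter Topology
open scoped ComplexConjugate InnerProductSpace

namespace Vale.Agent.P132.H8

universe u

variable {H : Type u} [NormedAddCommGroup H] [InnerProductSpace ℂ H] [CompleteSpace H]

/-- unit vectors of the amplification which are separating for `M` -/
structure Sep (M : VonNeumannAlgebra H) (V : EllTwo H) : Prop where
  norm : ‖V‖ = 1
  sep : ∀ x ∈ M, amp x V = 0 → x = 0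

variable {M : VonNeumannAlgebra H} {V W : EllTwo H}

theorem isNormal_st (h : ‖V‖ = 1) : IsNormalState M (st V) := by
  refine ⟨fun i => V i, ?_, fun x _ => lp.hasSum_inner (𝕜 := ℂ) V (amp x V)⟩
  have h1 := L2_norm_sq V
  rw [h] at h1
  simpa using h1

theorem Sep.faithful (h : Sep M V) : IsFaithful M (st V) := by
  intro x hx h0
  apply h.sep x hx
  rw [st_self] at h0
  have h1 : ‖amp x V‖ ^ 2 = 0 := by exact_mod_cast h0
  exact norm_eq_zero.1 (pow_eq_zero_iff (two_ne_zero)|>.1 h1)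

theorem sep_of {φ : (H →L[ℂ] H) → ℂ} (hf : IsFaithful M φ) (hV : ‖V‖ = 1)
    (h : ∀ x ∈ M, φ x = st V x) : Sep M V := by
  refine ⟨hV, fun x hx h0 => hf x hx ?_⟩
  rw [h _ (mul_mem (star_mem hx) hx), st_self, h0]
  simp

/-- almost intertwining elements -/
def Int (M : VonNeumannAlgebra H) (V W : EllTwo H) (lam δ : ℝ) (w : H →L[ℂ] H) : Prop :=
  ∀ y ∈ M, ‖st W (y * w) - lam * st V (w * y)‖ ≤ δ * ‖y‖

theorem Int.mono {lam δ δ' : ℝ} {w : H →L[ℂ] H} (h : Int M V W lam δ w) (hd : δ ≤ δ') :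
    Int M V W lam δ' w := fun y hy =>
  (h y hy).trans (mul_le_mul_of_nonneg_right hd (norm_nonneg _))

theorem Int.adj {lam δ : ℝ} (hl : 0 < lam) {w : H →L[ℂ] H} (h : Int M W V lam⁻¹ δ w) :
    Int M V W lam (lam * δ) (star w) := by
  intro y hy
  have h1 := h (star y) (star_mem hy)
  have e1 : st W (y * star w) = conj (st W (w * star y)) := by
    rw [← st_star, star_mul, star_star]
  have e2 : st V (star w * y) = conj (st V (star y * w)) := by
    rw [← st_star, star_mul, star_star]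
  rw [e1, e2]
  have e3 : conj (st W (w * star y)) - (lam : ℂ) * conj (st V (star y * w)) =
      conj (-(lam : ℂ) * (st V (star y * w) - ((lam⁻¹ : ℝ) : ℂ) * st W (w * star y))) := by
    have h3 : (lam : ℂ) * ((lam⁻¹ : ℝ) : ℂ) = 1 := by
      rw [← Complex.ofReal_mul, mul_inv_cancel₀ hl.ne', Complex.ofReal_one]
    have h4 : -(lam : ℂ) * (st V (star y * w) - ((lam⁻¹ : ℝ) : ℂ) * st W (w * star y)) =
        (lam : ℂ) * ((lam⁻¹ : ℝ) : ℂ) * st W (w * star y) - (lam : ℂ) * st V (star y * w) := by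
      ring
    rw [h4, h3, one_mul, map_sub, map_mul, Complex.conj_ofReal]
  rw [e3, RCLike.norm_conj, norm_mul, norm_neg, Complex.norm_real, Real.norm_of_nonneg hl.le,
    mul_assoc]
  rw [norm_star] at h1
  exact mul_le_mul_of_nonneg_left h1 hl.le

/-- the mixed state -/
noncomputable def mix (v1 v2 : H →L[ℂ] H) (V W : EllTwo H) (lam : ℝ) (x : H →L[ℂ] H) : ℂ :=
  ((lam / (1 + lam) : ℝ) : ℂ) * st V (star v1 * x * v1) +
    (((1 + lam)⁻¹ : ℝ) : ℂ) * st W (star v2 * x * v2)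

section
variable {v1 v2 : H →L[ℂ] H} (h1 : star v1 * v1 = 1) (h2 : star v2 * v2 = 1)
  (h12 : star v1 * v2 = 0) (h21 : star v2 * v1 = 0) {lam : ℝ} (hl : 0 < lam)

include h1 h2 hl in
theorem mix_normal (hV : ‖V‖ = 1) (hW : ‖W‖ = 1) : IsNormalState M (mix v1 v2 V W lam) :=
  isNormalState_mix hV hW h1 h2 (by positivity) (by positivity) (by field_simp; ring)

theorem mix_self (x : H →L[ℂ] H) : mix v1 v2 V W lam (star x * x) =
    ((lam / (1 + lam) * ‖amp (x * v1) V‖ ^ 2 + (1 + lam)⁻¹ * ‖amp (x * v2) W‖ ^ 2 : ℝ) : ℂ) := by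
  have e1 : star v1 * (star x * x) * v1 = star (x * v1) * (x * v1) := by
    rw [star_mul]; simp only [mul_assoc]
  have e2 : star v2 * (star x * x) * v2 = star (x * v2) * (x * v2) := by
    rw [star_mul]; simp only [mul_assoc]
  unfold mix
  rw [e1, e2, st_self, st_self]
  push_cast
  ring

include hl in
theorem mix_faithful (hs : v1 * star v1 + v2 * star v2 = 1) (hv1 : v1 ∈ M) (hv2 : v2 ∈ M)
    (hV : Sep M V) (hW : Sep M W) : IsFaithful M (mix v1 v2 V W lam) := by
  intro x hx h0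
  rw [mix_self] at h0
  have h3 : lam / (1 + lam) * ‖amp (x * v1) V‖ ^ 2 + (1 + lam)⁻¹ * ‖amp (x * v2) W‖ ^ 2 = 0 := by
    exact_mod_cast h0
  have p1 : 0 < lam / (1 + lam) := by positivity
  have p2 : 0 < (1 + lam)⁻¹ := by positivity
  have q1 : 0 ≤ lam / (1 + lam) * ‖amp (x * v1) V‖ ^ 2 := by positivity
  have q2 : 0 ≤ (1 + lam)⁻¹ * ‖amp (x * v2) W‖ ^ 2 := by positivity
  have r1 : ‖amp (x * v1) V‖ ^ 2 = 0 := by
    have : lam / (1 + lam) * ‖amp (x * v1) V‖ ^ 2 = 0 := by linarith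
    rcases mul_eq_zero.1 this with h | h
    · exact absurd h p1.ne'
    · exact h
  have r2 : ‖amp (x * v2) W‖ ^ 2 = 0 := by
    have : (1 + lam)⁻¹ * ‖amp (x * v2) W‖ ^ 2 = 0 := by linarith
    rcases mul_eq_zero.1 this with h | h
    · exact absurd h p2.ne'
    · exact h
  have t1 : x * v1 = 0 := hV.sep _ (mul_mem hx hv1)
    (norm_eq_zero.1 ((pow_eq_zero_iff two_ne_zero).1 r1))
  have t2 : x * v2 = 0 := hW.sep _ (mul_mem hx hv2)
    (norm_eq_zero.1 ((pow_eq_zero_iff two_ne_zero).1 r2))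
  calc x = x * (v1 * star v1 + v2 * star v2) := by rw [hs, mul_one]
    _ = 0 := by rw [mul_add, ← mul_assoc, ← mul_assoc, t1, t2]; simp

include h1 h2 h12 hl in
theorem int_of_ac (hv1 : v1 ∈ M) (hv2 : v2 ∈ M) (hV : ‖V‖ = 1) (hW : ‖W‖ = 1) {δ : ℝ}
    (hδ : 0 ≤ δ) {u : H →L[ℂ] H} (hu : u ∈ almostCentralizing M (mix v1 v2 V W lam) δ) :
    Int M V W lam ((1 + lam) * δ) (star v1 * u * v2) := by
  intro y hy
  have hz : v2 * y * star v1 ∈ M := mul_mem (mul_mem hv2 hy) (star_mem hv1)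
  have h3 := PD.ac_scale (mix_normal (M := M) h1 h2 hl hV hW) hu hz
  have hzn : ‖v2 * y * star v1‖ ≤ ‖y‖ := by
    calc ‖v2 * y * star v1‖ ≤ ‖v2‖ * ‖y‖ * ‖star v1‖ :=
          (norm_mul_le _ _).trans (mul_le_mul_of_nonneg_right (norm_mul_le _ _) (norm_nonneg _))
      _ ≤ 1 * ‖y‖ * 1 := by
          have a1 := isometry_norm_le h1
          have a2 := isometry_norm_le h2
          rw [norm_star]
          gcongr
      _ = ‖y‖ := by ring
  have e1 : mix v1 v2 V W lam (v2 * y * star v1 * u) =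
      (((1 + lam)⁻¹ : ℝ) : ℂ) * st W (y * (star v1 * u * v2)) := by
    unfold mix
    have a1 : star v1 * (v2 * y * star v1 * u) * v1 = 0 := by
      have : star v1 * (v2 * y * star v1 * u) * v1 = (star v1 * v2) * (y * star v1 * u * v1) := by
        simp only [mul_assoc]
      rw [this, h12, zero_mul]
    have a2 : star v2 * (v2 * y * star v1 * u) * v2 = y * (star v1 * u * v2) := by
      have : star v2 * (v2 * y * star v1 * u) * v2 = (star v2 * v2) * (y * (star v1 * u * v2)) := by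
        simp only [mul_assoc]
      rw [this, h2, one_mul]
    rw [a1, a2, st_zero]
    ring
  have e2 : mix v1 v2 V W lam (u * (v2 * y * star v1)) =
      ((lam / (1 + lam) : ℝ) : ℂ) * st V (star v1 * u * v2 * y) := by
    unfold mix
    have a1 : star v1 * (u * (v2 * y * star v1)) * v1 = star v1 * u * v2 * y := by
      have : star v1 * (u * (v2 * y * star v1)) * v1 = star v1 * u * v2 * y * (star v1 * v1) := by
        simp only [mul_assoc]
      rw [this, h1, mul_one]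
    have a2 : star v2 * (u * (v2 * y * star v1)) * v2 = 0 := by
      have : star v2 * (u * (v2 * y * star v1)) * v2 = star v2 * u * v2 * y * (star v1 * v2) := by
        simp only [mul_assoc]
      rw [this, h12, mul_zero]
    rw [a1, a2, st_zero]
    ring
  rw [e1, e2] at h3
  have e3 : ∀ P Q : ℂ, P - (lam : ℂ) * Q =
      ((1 + lam : ℝ) : ℂ) * ((((1 + lam)⁻¹ : ℝ) : ℂ) * P - ((lam / (1 + lam) : ℝ) : ℂ) * Q) := by
    intro P Q
    have b1 : ((1 + lam : ℝ) : ℂ) * (((1 + lam)⁻¹ : ℝ) : ℂ) = 1 := by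
      rw [← Complex.ofReal_mul, mul_inv_cancel₀ (by positivity), Complex.ofReal_one]
    have b2 : ((1 + lam : ℝ) : ℂ) * ((lam / (1 + lam) : ℝ) : ℂ) = lam := by
      rw [← Complex.ofReal_mul]; congr 1; field_simp
    rw [mul_sub, ← mul_assoc, ← mul_assoc, b1, b2, one_mul]
  have p0 : 0 ≤ 1 + lam := by positivity
  rw [e3, norm_mul, Complex.norm_real, Real.norm_of_nonneg p0, mul_assoc (1 + lam) δ]
  refine mul_le_mul_of_nonneg_left (h3.trans ?_) p0
  exact mul_le_mul_of_nonneg_left hzn hδ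

end

/-- averages of almost intertwining elements -/
theorem exists_avg (hM : IsTypeIIIOneFactor M) (hV : Sep M V) (hW : Sep M W) {lam : ℝ}
    (hl : 0 < lam) {δ ε : ℝ} (hδ : 0 < δ) (hε : 0 < ε) :
    ∃ (n : ℕ) (c : Fin n → ℝ) (Y : Fin n → (H →L[ℂ] H)), (∀ i, 0 ≤ c i) ∧ ∑ i, c i = 1 ∧
      (∀ i, Y i ∈ M ∧ ‖Y i‖ ≤ 1) ∧ (∀ i, Int M V W lam δ (Y i)) ∧
      ‖amp (∑ i, (c i : ℂ) • (Y i * star (Y i)) - (((1 + lam)⁻¹ : ℝ) : ℂ) • 1) V‖ ≤ ε := by
  obtain ⟨v1, hv1, v2, hv2, h1, h2, hs, h12, h21⟩ :=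
    exists_isometries hM (isNormal_st (M := M) hV.norm) hV.faithful
  have hN : IsNormalState M (mix v1 v2 V W lam) := mix_normal h1 h2 hl hV.norm hW.norm
  have hF : IsFaithful M (mix v1 v2 V W lam) := mix_faithful hl hs hv1 hv2 hV hW
  have p1 : 0 < lam / (1 + lam) := by positivity
  obtain ⟨n, c, u, hc0, hc1, hu, hsum⟩ := exists_averaging_state hM hN hF (ι := Unit)
    (x := fun _ => v2 * star v2) (fun _ => mul_mem hv2 (star_mem hv2))
    (δ := δ / (1 + lam)) (ε := lam / (1 + lam) * ε ^ 2) (by positivity) (by positivity)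
  have hA := hsum ()
  have hθ : mix v1 v2 V W lam (v2 * star v2) = (((1 + lam)⁻¹ : ℝ) : ℂ) := by
    unfold mix
    have a1 : star v1 * (v2 * star v2) * v1 = 0 := by rw [← mul_assoc, h12]; simp
    have a2 : star v2 * (v2 * star v2) * v2 = 1 := by
      have : star v2 * (v2 * star v2) * v2 = (star v2 * v2) * (star v2 * v2) := by
        simp only [mul_assoc]
      rw [this, h2, one_mul]
    rw [a1, a2, st_zero, st_one hW.norm]
    ring
  simp only [hθ] at hA
  set T : H →L[ℂ] H := ∑ i, (c i : ℂ) • (u i * (v2 * star v2) * star (u i)) -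
    (((1 + lam)⁻¹ : ℝ) : ℂ) • 1 with hT
  rw [mix_self, Complex.norm_real, Real.norm_of_nonneg (by positivity)] at hA
  have hA1 : ‖amp (T * v1) V‖ ^ 2 ≤ ε ^ 2 := by
    have : lam / (1 + lam) * ‖amp (T * v1) V‖ ^ 2 ≤ lam / (1 + lam) * ε ^ 2 := by
      have : 0 ≤ (1 + lam)⁻¹ * ‖amp (T * v2) W‖ ^ 2 := by positivity
      linarith
    exact le_of_mul_le_mul_left this p1
  have hA2 : ‖amp (T * v1) V‖ ≤ ε :=
    (pow_le_pow_iff_left₀ (norm_nonneg _) hε.le two_ne_zero).1 hA1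
  refine ⟨n, c, fun i => star v1 * u i * v2, hc0, hc1, fun i => ⟨mul_mem (mul_mem (star_mem hv1)
    (hu i).1) hv2, ?_⟩, fun i => ?_, ?_⟩
  · have a1 := isometry_norm_le h1
    have a2 := isometry_norm_le h2
    have a3 := norm_unitary_le_one (hu i).2.1
    calc ‖star v1 * u i * v2‖ ≤ ‖star v1‖ * ‖u i‖ * ‖v2‖ :=
          (norm_mul_le _ _).trans (mul_le_mul_of_nonneg_right (norm_mul_le _ _) (norm_nonneg _))
      _ ≤ 1 * 1 * 1 := by rw [norm_star]; gcongr
      _ = 1 := by ring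
  · have h3 := int_of_ac h1 h2 h12 hl hv1 hv2 hV.norm hW.norm (by positivity) (hu i)
    have : (1 + lam) * (δ / (1 + lam)) = δ := by field_simp
    rwa [this] at h3
  · have e1 : ∑ i, (c i : ℂ) • (star v1 * u i * v2 * star (star v1 * u i * v2)) -
        (((1 + lam)⁻¹ : ℝ) : ℂ) • (1 : H →L[ℂ] H) = star v1 * (T * v1) := by
      rw [hT, sub_mul, mul_sub, Finset.sum_mul, Finset.mul_sum]
      congr 1
      · refine Finset.sum_congr rfl fun i _ => ?_
        rw [star_mul, star_mul, star_star, smul_mul_assoc, mul_smul_comm]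
        simp only [mul_assoc]
      · rw [smul_mul_assoc, mul_smul_comm, one_mul, h1]
    rw [e1]
    refine (norm_amp_mul_le _ _ _).trans ?_
    have a1 := isometry_norm_le h1
    rw [norm_star]
    calc ‖v1‖ * ‖amp (T * v1) V‖ ≤ 1 * ε := by gcongr
      _ = ε := one_mul _

end Vale.Agent.P132.H8
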