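import Vale.Agent.P132.WeightDefs

/-!
# P132: sequences asymptotically intertwining two states
-/

open Filter Topology

namespace Vale.Agent.P132

universe u

variable {H : Type u} [NormedAddCommGroup H] [InnerProductSpace ℂ H] [CompleteSpace H]

/-- `‖w_n ψ - lam φ w_n‖ → 0` in the predual of `M`, where `(w ψ)(y) = ψ (y w)` and
`(φ w)(y) = φ (w y)`, and the norm of the predual is the norm of a functional on the unit ball of
`M`. For `φ = ψ` and `lam = 1` this is `AsympCentralizes M φ w`. -/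
def AsympIntertwines (M : VonNeumannAlgebra H) (φ ψ : (H →L[ℂ] H) → ℂ) (lam : ℝ)
    (w : ℕ → (H →L[ℂ] H)) : Prop :=
  ∀ ε : ℝ, 0 < ε → ∀ᶠ n in atTop, ∀ y ∈ M, ‖y‖ ≤ 1 → ‖ψ (y * w n) - lam * φ (w n * y)‖ ≤ ε

end Vale.Agent.P132
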