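import Vale.Agent.P132.H8.Two

/-!
# P132: the bicentralizer of a normal state which is not faithful
-/

open Filter Topology
open scoped ComplexConjugate InnerProductSpace

namespace Vale.Agent.P132.H8

universe u

variable {H : Type u} [NormedAddCommGroup H] [InnerProductSpace ℂ H] [CompleteSpace H]
variable {M : VonNeumannAlgebra H} {V W : EllTwo H}

/-- the support projection of a normal functional -/
theorem exists_support (M : VonNeumannAlgebra H) (V : EllTwo H) :
    ∃ e ∈ M, star e = e ∧ e * e = e ∧ amp e V = V ∧ ∀ z ∈ M, amp z V = 0 → z * e = 0 := by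
  set G : Set H := {w | ∃ y ∈ M.commutant, ∃ i, y (V i) = w} with hG
  set S : Submodule ℂ H := (Submodule.span ℂ G).topologicalClosure with hS
  have : CompleteSpace S := (Submodule.isClosed_topologicalClosure _).completeSpace_coe
  have hA : Cmp.Aff M S := by
    refine Cmp.Aff.closure (Cmp.Aff.span ?_)
    rintro y hy _ ⟨z, hz, i, rfl⟩
    exact ⟨y * z, mul_mem hy hz, i, rfl⟩
  have hmem : ∀ i, V i ∈ S := fun i =>
    Submodule.le_topologicalClosure _ (Submodule.subset_span ⟨1, one_mem _, i, rfl⟩)
  refine ⟨S.starProjection, hA.proj_mem, ?_, ?_, ?_, ?_⟩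
  · exact isSelfAdjoint_starProjection S
  · exact S.isIdempotentElem_starProjection
  · ext i
    rw [amp_apply]
    exact Submodule.starProjection_eq_self_iff.2 (hmem i)
  · intro z hz h0
    have h1 : ∀ g ∈ G, z g = 0 := by
      rintro _ ⟨y, hy, i, rfl⟩
      have h2 : z (V i) = 0 := by
        have h3 := congrArg (fun f : EllTwo H => f i) h0
        simpa using h3
      rw [← Cmp.comm_apply hz hy, h2, map_zero]
    have h2 : S ≤ LinearMap.ker (z : H →ₗ[ℂ] H) := by
      refine Submodule.topologicalClosure_minimal _ ?_ ?_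
      · rw [Submodule.span_le]
        intro g hg
        exact h1 g hg
      · exact ContinuousLinearMap.isClosed_ker z
    ext x
    exact h2 (S.starProjection_apply_mem x)

theorem bicentralizer_congr {φ ψ : (H →L[ℂ] H) → ℂ} (h : ∀ x ∈ M, φ x = ψ x) :
    bicentralizer M φ = bicentralizer M ψ := by
  have key : ∀ {φ ψ : (H →L[ℂ] H) → ℂ}, (∀ x ∈ M, φ x = ψ x) →
      bicentralizer M φ ⊆ bicentralizer M ψ := by
    intro φ ψ h a ha
    refine ⟨ha.1, fun w hw hC hwc => ha.2 w hw hC fun ε hε => ?_⟩
    filter_upwards [hwc ε hε] with n hn y hy hy1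
    rw [h _ (mul_mem hy (hw n)), h _ (mul_mem (hw n) hy)]
    exact hn y hy hy1
  exact Set.Subset.antisymm (key h) (key fun x hx => (h x hx).symm)

theorem scalar_mem (φ : (H →L[ℂ] H) → ℂ) (c : ℂ) : c • (1 : H →L[ℂ] H) ∈ bicentralizer M φ := by
  refine ⟨M.toStarSubalgebra.smul_mem (one_mem M) c, ?_⟩
  intro w _ _ _ ζ
  have : ∀ n, ((c • (1 : H →L[ℂ] H)) * w n - w n * (c • (1 : H →L[ℂ] H))) ζ = 0 := by
    intro n
    simp
  simp only [this]
  exact tendsto_const_nhds

theorem all_equiv (hM : IsTypeIIIOneFactor M) {χ : (H →L[ℂ] H) → ℂ} (hχ : IsNormalState M χ)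
    (hf : IsFaithful M χ) {e : H →L[ℂ] H} (he : e ∈ M) (hs : star e = e) (hi : e * e = e)
    (h0 : e ≠ 0) : ∃ p ∈ M, star p * p = 1 ∧ p * star p = e := by
  have hS : ∀ t : ℝ, 0 < t → t ∈ connesS M := fun t ht =>
    connesInvariant_subset (by rw [hM.connes]; exact ht.le)
  have hIII := isTypeIII_of_connesS hM.factor hS hχ hf
  obtain ⟨v, hv, h1, h2⟩ := isTypeIII_of_state hM.factor hχ hf hIII e he hs hi h0
  exact ⟨star v, star_mem hv, by rw [star_star, h2], by rw [star_star, h1]⟩

theorem mem_bic_scalar (hM : IsTypeIIIOneFactor M) {χ : (H →L[ℂ] H) → ℂ}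
    (hχ : IsNormalState M χ) (hf : IsFaithful M χ) (hV : ‖V‖ = 1) {a : H →L[ℂ] H}
    (ha : a ∈ bicentralizer M (st V)) : ∃ c : ℂ, a = c • 1 := by
  obtain ⟨e, heM, hes, hei, heV, hesep⟩ := exists_support M V
  have heR : ∀ x, st V (x * e) = st V x := by
    intro x
    unfold st
    rw [amp_mul_apply, heV]
  have heL : ∀ x, st V (e * x) = st V x := by
    intro x
    have h1 := heR (star x)
    have h2 : star x * e = star (e * x) := by rw [star_mul, hes]
    rw [h2, st_star, st_star] at h1
    exact (starRingEnd ℂ).injective h1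
  have he0 : e ≠ 0 := by
    intro h
    have h1 := heR 1
    rw [h, mul_zero, st_zero, st_one hV] at h1
    exact zero_ne_one h1
  obtain ⟨p, hpM, hp1, hp2⟩ := all_equiv hM hχ hf heM hes hei he0
  have hep : e * p = p := by rw [← hp2, mul_assoc, hp1, mul_one]
  have hpe : star p * e = star p := by
    have := congrArg star hep
    rwa [star_mul, hes] at this
  -- constant sequences
  have hconst : ∀ w ∈ M, (∀ y ∈ M, st V (y * w) = st V (w * y)) → a * w = w * a := by
    intro w hw h
    have h1 := ha.2 (fun _ => w) (fun _ => hw) ⟨‖w‖, fun _ => le_rfl⟩ (fun ε hε =>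
      Eventually.of_forall fun n y hy _ => by rw [h y hy, sub_self, norm_zero]; exact hε.le)
    have h2 : a * w - w * a = 0 := by
      ext ζ
      exact tendsto_nhds_unique tendsto_const_nhds (h1 ζ)
    exact sub_eq_zero.1 h2
  have hae : a * e = e * a := hconst e heM fun y hy => by rw [heR, heL]
  -- the corner of the support
  set V' : EllTwo H := amp (star p) V with hV'
  have hst' : ∀ x, st V' x = st V (p * x * star p) := by
    intro x
    unfold st
    rw [hV', amp_mul, amp_mul, mul_assoc, mul_apply_eq_comp, mul_apply_eq_comp, amp_star,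
      BC.inner_star]
  have hV'1 : ‖V'‖ = 1 := by
    have h1 := st_self V (star p)
    rw [star_star, hp2] at h1
    have h2 := heR 1
    rw [one_mul, st_one hV] at h2
    rw [h2] at h1
    have h3 : ‖V'‖ ^ 2 = 1 := by exact_mod_cast h1.symm
    have h4 := norm_nonneg V'
    nlinarith
  have hSep' : Sep M V' := by
    refine ⟨hV'1, fun x hx h0 => ?_⟩
    have h1 : amp (x * star p) V = 0 := by rw [amp_mul_apply]; exact h0
    have h2 := hesep _ (mul_mem hx (star_mem hpM)) h1
    rw [mul_assoc, hpe] at h2
    calc x = x * star p * p := by rw [mul_assoc, hp1, mul_one]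
      _ = 0 := by rw [h2, zero_mul]
  have hpap : star p * a * p ∈ bicentralizer M (st V') := by
    refine ⟨mul_mem (mul_mem (star_mem hpM) ha.1) hpM, fun w hw hC hwc ζ => ?_⟩
    obtain ⟨C, hC⟩ := hC
    have hpn := isometry_norm_le hp1
    have hpn' : ‖star p‖ ≤ 1 := by rw [norm_star]; exact hpn
    have h1 := ha.2 (fun n => p * w n * star p)
      (fun n => mul_mem (mul_mem hpM (hw n)) (star_mem hpM)) ⟨C, fun n => by
        calc ‖p * w n * star p‖ ≤ ‖p‖ * ‖w n‖ * ‖star p‖ :=
              (norm_mul_le _ _).trans (mul_le_mul_of_nonneg_right (norm_mul_le _ _)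
                (norm_nonneg _))
          _ ≤ 1 * ‖w n‖ * 1 := by gcongr
          _ ≤ C := by rw [one_mul, mul_one]; exact hC n⟩ (fun ε hε => by
        filter_upwards [hwc ε hε] with n hn y hy hy1
        have hy' : star p * y * p ∈ M := mul_mem (mul_mem (star_mem hpM) hy) hpM
        have hyn : ‖star p * y * p‖ ≤ 1 := by
          calc ‖star p * y * p‖ ≤ ‖star p‖ * ‖y‖ * ‖p‖ :=
              (norm_mul_le _ _).trans (mul_le_mul_of_nonneg_right (norm_mul_le _ _)
                (norm_nonneg _))
          _ ≤ 1 * 1 * 1 := by gcongr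
          _ = 1 := by ring
        have h2 := hn _ hy' hyn
        rw [hst', hst'] at h2
        have e1 : st V (y * (p * w n * star p)) = st V (p * (star p * y * p * w n) * star p) := by
          rw [← heL]
          congr 1
          rw [← hp2]
          simp only [mul_assoc]
        have e2 : st V (p * w n * star p * y) = st V (p * (w n * (star p * y * p)) * star p) := by
          rw [← heR]
          congr 1
          rw [← hp2]
          simp only [mul_assoc]
        rw [e1, e2]
        exact h2) (p ζ)
    have h2 := ((star p).continuous.tendsto 0).comp h1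
    rw [map_zero] at h2
    refine h2.congr fun n => ?_
    have e : star p * (a * (p * w n * star p) - p * w n * star p * a) * p =
        star p * a * p * w n - w n * (star p * a * p) := by
      rw [mul_sub, sub_mul]
      have e1 : star p * (a * (p * w n * star p)) * p = star p * a * p * w n * (star p * p) := by
        simp only [mul_assoc]
      have e2 : star p * (p * w n * star p * a) * p = (star p * p) * (w n * (star p * a * p)) := by
        simp only [mul_assoc]
      rw [e1, e2, hp1, mul_one, one_mul]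
    rw [← e]
    rfl
  rw [bicentralizer_eq_of_weights hM (isNormal_st hV'1) hSep'.faithful] at hpap
  obtain ⟨c, hc⟩ := hpap
  have hc' : e * a * e = c • e := by
    calc e * a * e = p * (star p * a * p) * star p := by rw [← hp2]; simp only [mul_assoc]
      _ = c • e := by rw [hc, mul_smul_comm, smul_mul_assoc, mul_one, hp2]
  have haee : a * e = c • e := by
    rw [← hc', mul_assoc, hae, ← mul_assoc, hei]
  by_cases he1 : 1 - e = 0
  · refine ⟨c, ?_⟩
    have : e = 1 := (sub_eq_zero.1 he1).symm
    rw [this, mul_one] at haee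
    exact haee
  obtain ⟨q, hqM, hq1, hq2⟩ := all_equiv hM hχ hf (sub_mem (one_mem M) heM)
    (by rw [star_sub, star_one, hes]) (by rw [mul_sub, sub_mul, sub_mul, hei]; simp) he1
  have heq : e * q = 0 := by
    have h1 : (1 - e) * q = q := by rw [← hq2, mul_assoc, hq1, mul_one]
    rw [sub_mul, one_mul, sub_eq_self] at h1
    exact h1
  have hqe : star q * e = 0 := by
    have := congrArg star heq
    rwa [star_mul, hes, star_zero] at this
  have hqaq : ∀ x ∈ M, x * (star q * a * q) = star q * a * q * x := by
    intro x hx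
    have h1 := hconst (q * x * star q) (mul_mem (mul_mem hqM hx) (star_mem hqM)) (fun y hy => by
      rw [← heR (y * (q * x * star q)), ← heL (q * x * star q * y)]
      have e1 : y * (q * x * star q) * e = 0 := by
        have : y * (q * x * star q) * e = y * (q * x) * (star q * e) := by simp only [mul_assoc]
        rw [this, hqe, mul_zero]
      have e2 : e * (q * x * star q * y) = 0 := by
        have : e * (q * x * star q * y) = (e * q) * (x * star q * y) := by simp only [mul_assoc]
        rw [this, heq, zero_mul]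
      rw [e1, e2])
    have h2 : star q * (a * (q * x * star q)) * q = star q * (q * x * star q * a) * q := by
      rw [h1]
    have e1 : star q * (a * (q * x * star q)) * q = star q * a * q * x * (star q * q) := by
      simp only [mul_assoc]
    have e2 : star q * (q * x * star q * a) * q = (star q * q) * (x * (star q * a * q)) := by
      simp only [mul_assoc]
    rw [e1, e2, hq1, mul_one, one_mul] at h2
    exact h2.symm
  obtain ⟨d, hd⟩ := hM.factor (star q * a * q) (mul_mem (mul_mem (star_mem hqM) ha.1) hqM)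
    (by rw [VonNeumannAlgebra.mem_commutant_iff]; exact hqaq)
  have had : a * (1 - e) = d • (1 - e) := by
    have h1 : (1 - e) * a * (1 - e) = d • (1 - e) := by
      calc (1 - e) * a * (1 - e) = q * (star q * a * q) * star q := by
            rw [← hq2]; simp only [mul_assoc]
        _ = d • (1 - e) := by rw [hd, mul_smul_comm, smul_mul_assoc, mul_one, hq2]
    have h2 : (1 - e) * a = a * (1 - e) := by rw [sub_mul, mul_sub, one_mul, mul_one, hae]
    have h3 : (1 - e) * (1 - e) = 1 - e := by rw [mul_sub, sub_mul, sub_mul, hei]; simp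
    rw [h2, mul_assoc, h3] at h1
    exact h1
  have hqq : a * q = d • q := by
    have h1 : (1 - e) * q = q := by rw [← hq2, mul_assoc, hq1, mul_one]
    calc a * q = a * (1 - e) * q := by rw [mul_assoc, h1]
      _ = d • q := by rw [had, smul_mul_assoc, h1]
  have hpp : a * p = c • p := by
    calc a * p = a * e * p := by rw [mul_assoc, hep]
      _ = c • p := by rw [haee, smul_mul_assoc, hep]
  -- comparison of the two scalars
  obtain ⟨v1, hv1, v2, hv2, h1, h2, hs, -, -⟩ := exists_isometries hM hχ hf
  set z : ℕ → EllTwo H := fun n => amp ((star v1) ^ n) V' with hz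
  have hzz : ∀ n, ‖z n‖ ^ 2 = ‖z (n + 1)‖ ^ 2 + ‖amp (star v2) (z n)‖ ^ 2 := by
    intro n
    have e1 := st_self (z n) (star v1)
    have e2 := st_self (z n) (star v2)
    rw [star_star] at e1 e2
    have e3 : st (z n) (v1 * star v1) + st (z n) (v2 * star v2) = ((‖z n‖ ^ 2 : ℝ) : ℂ) := by
      rw [← st_add, hs]
      unfold st
      rw [amp_one]
      show ⟪z n, z n⟫_ℂ = _
      rw [inner_self_eq_norm_sq_to_K]
      norm_cast
    rw [e1, e2] at e3
    have e4 : amp (star v1) (z n) = z (n + 1) := by
      rw [hz]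
      simp only
      rw [← amp_mul_apply, ← pow_succ']
    rw [e4] at e3
    exact_mod_cast e3.symm
  have hanti : Antitone fun n => ‖z n‖ ^ 2 := antitone_nat_of_succ_le fun n => by
    rw [hzz n]
    have : 0 ≤ ‖amp (star v2) (z n)‖ ^ 2 := by positivity
    linarith
  obtain ⟨l, hl⟩ : ∃ l, Tendsto (fun n => ‖z n‖ ^ 2) atTop (𝓝 l) :=
    ⟨_, tendsto_atTop_ciInf hanti ⟨0, by rintro _ ⟨n, rfl⟩; positivity⟩⟩
  have hlim : Tendsto (fun n => ‖amp (star v2) (z n)‖ ^ 2) atTop (𝓝 0) := by
    have h3 := hl.sub ((tendsto_add_atTop_iff_nat 1).2 hl)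
    rw [sub_self] at h3
    refine h3.congr fun n => ?_
    rw [hzz n]; ring
  have hlim' : Tendsto (fun n => ‖amp (star v2) (z n)‖) atTop (𝓝 0) := by
    have h3 := hlim.sqrt
    simpa [Real.sqrt_sq (norm_nonneg _)] using h3
  have hrn : ∀ n, star (v1 ^ n * v2) * (v1 ^ n * v2) = 1 := by
    intro n
    have h3 : star (v1 ^ n) * v1 ^ n = 1 := by
      induction n with
      | zero => simp
      | succ n ih =>
        rw [pow_succ', star_mul]
        have : star (v1 ^ n) * star v1 * (v1 * v1 ^ n) = star (v1 ^ n) * (star v1 * v1) * v1 ^ n := by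
          simp only [mul_assoc]
        rw [this, h1, mul_one, ih]
    rw [star_mul]
    have : star v2 * star (v1 ^ n) * (v1 ^ n * v2) = star v2 * (star (v1 ^ n) * v1 ^ n) * v2 := by
      simp only [mul_assoc]
    rw [this, h3, mul_one, h2]
  set w : ℕ → (H →L[ℂ] H) := fun n => p * (v1 ^ n * v2) * star q with hw
  have hwM : ∀ n, w n ∈ M := fun n =>
    mul_mem (mul_mem hpM (mul_mem (pow_mem hv1 n) hv2)) (star_mem hqM)
  have hwn : ∀ n, ‖w n‖ ≤ 1 := by
    intro n
    have a1 := isometry_norm_le hp1
    have a2 := isometry_norm_le (hrn n)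
    have a3 := isometry_norm_le hq1
    calc ‖w n‖ ≤ ‖p‖ * ‖v1 ^ n * v2‖ * ‖star q‖ :=
          (norm_mul_le _ _).trans (mul_le_mul_of_nonneg_right (norm_mul_le _ _) (norm_nonneg _))
      _ ≤ 1 * 1 * 1 := by rw [norm_star]; gcongr
      _ = 1 := by ring
  have hwe : ∀ n, w n * e = 0 := fun n => by
    show p * (v1 ^ n * v2) * star q * e = 0
    rw [mul_assoc, hqe, mul_zero]
  have hwV : ∀ n, ‖amp (star (w n)) V‖ ≤ ‖amp (star v2) (z n)‖ := by
    intro n
    have e1 : star (w n) = q * (star v2 * (star v1 ^ n * star p)) := by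
      show star (p * (v1 ^ n * v2) * star q) = _
      rw [star_mul, star_mul, star_mul, star_star, star_pow]
      simp only [mul_assoc]
    rw [e1]
    refine (norm_amp_mul_le _ _ _).trans ?_
    have a3 := isometry_norm_le hq1
    have e2 : amp (star v2 * (star v1 ^ n * star p)) V = amp (star v2) (z n) := by
      rw [amp_mul_apply, amp_mul_apply]
    rw [e2]
    calc ‖q‖ * ‖amp (star v2) (z n)‖ ≤ 1 * ‖amp (star v2) (z n)‖ := by gcongr
      _ = _ := one_mul _
  have h3 := ha.2 w hwM ⟨1, hwn⟩ (fun ε hε => by
    have h4 := hlim'.eventually (gt_mem_nhds hε)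
    filter_upwards [h4] with n hn y hy hy1
    have e1 : st V (y * w n) = 0 := by
      rw [← heR, mul_assoc, hwe, mul_zero, st_zero]
    rw [e1, zero_sub, norm_neg]
    refine (norm_st_mul_le V _ _).trans ?_
    have h5 : ‖amp y V‖ ≤ 1 := (norm_amp_apply_le hV y).trans hy1
    calc ‖amp (star (w n)) V‖ * ‖amp y V‖ ≤ ε * 1 :=
          mul_le_mul ((hwV n).trans hn.le) h5 (norm_nonneg _) hε.le
      _ = ε := mul_one _)
  have hawn : ∀ n, a * w n - w n * a = (c - d) • w n := by
    intro n
    have e1 : a * w n = c • w n := by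
      show a * (p * (v1 ^ n * v2) * star q) = c • (p * (v1 ^ n * v2) * star q)
      rw [← mul_assoc, ← mul_assoc, hpp, smul_mul_assoc, smul_mul_assoc]
    have e2 : w n * a = d • w n := by
      have e3 : w n = w n * (1 - e) := by rw [mul_sub, hwe, mul_one, sub_zero]
      have e4 : (1 - e) * a = d • (1 - e) := by
        rw [← had, sub_mul, mul_sub, one_mul, mul_one, hae]
      calc w n * a = w n * ((1 - e) * a) := by rw [← mul_assoc, ← e3]
        _ = d • w n := by rw [e4, mul_smul_comm, ← e3]
    rw [e1, e2, sub_smul]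
  have hcd : c = d := by
    obtain ⟨i, hi⟩ : ∃ i, V i ≠ 0 := by
      by_contra hcon
      push Not at hcon
      have : V = 0 := by ext i; exact hcon i
      rw [this, norm_zero] at hV
      exact zero_ne_one hV
    have h4 := (h3 (q (V i))).norm
    rw [norm_zero] at h4
    have h5 : ∀ n, ‖(a * w n - w n * a) (q (V i))‖ = ‖c - d‖ * ‖V i‖ := by
      intro n
      rw [hawn n]
      show ‖(c - d) • (w n (q (V i)))‖ = _
      rw [norm_smul]
      congr 1
      have e1 : w n (q (V i)) = p ((v1 ^ n * v2) ((star q * q) (V i))) := rfl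
      rw [e1, hq1, isometry_norm_apply hp1, isometry_norm_apply (hrn n)]
      rfl
    simp only [h5] at h4
    have h6 := tendsto_nhds_unique tendsto_const_nhds h4
    rcases mul_eq_zero.1 h6 with h7 | h7
    · exact sub_eq_zero.1 (norm_eq_zero.1 h7)
    · exact absurd (norm_eq_zero.1 h7) hi
  refine ⟨c, ?_⟩
  calc a = a * e + a * (1 - e) := by rw [mul_sub, mul_one]; abel
    _ = c • 1 := by rw [haee, had, ← hcd, ← smul_add]; congr 1; abel

end Vale.Agent.P132.H8
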