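import Vale.Agent.P132.H723.AvgComm

/-!
# P132: vector functionals on the amplification and mixtures of states
-/

open Filter Topology
open scoped ComplexConjugate InnerProductSpace

namespace Vale.Agent.P132.H8

universe u

variable {H : Type u} [NormedAddCommGroup H] [InnerProductSpace ℂ H] [CompleteSpace H]

/-- the functional `x ↦ ∑ ⟨x V_i, V_i⟩` -/
noncomputable def st (V : EllTwo H) (x : H →L[ℂ] H) : ℂ := ⟪V, amp x V⟫_ℂ

theorem amp_sub (x y : H →L[ℂ] H) : amp (x - y) = amp x - amp y := by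
  rw [sub_eq_add_neg, sub_eq_add_neg, amp_add]
  congr 1

theorem st_add (V : EllTwo H) (x y : H →L[ℂ] H) : st V (x + y) = st V x + st V y := by
  unfold st
  rw [amp_add, ← inner_add_right]
  rfl

theorem st_sub (V : EllTwo H) (x y : H →L[ℂ] H) : st V (x - y) = st V x - st V y := by
  unfold st
  rw [amp_sub, ← inner_sub_right]
  rfl

theorem st_smul (V : EllTwo H) (c : ℂ) (x : H →L[ℂ] H) : st V (c • x) = c * st V x := by
  unfold st
  rw [amp_smul, ← inner_smul_right]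
  rfl

theorem st_zero (V : EllTwo H) : st V (0 : H →L[ℂ] H) = 0 := by
  unfold st; rw [amp_zero]; simp

theorem st_one {V : EllTwo H} (hV : ‖V‖ = 1) : st V (1 : H →L[ℂ] H) = 1 := by
  unfold st
  rw [amp_one]
  show ⟪V, V⟫_ℂ = 1
  rw [inner_self_eq_norm_sq_to_K, hV]; simp

theorem st_sum {ι : Type*} (V : EllTwo H) (s : Finset ι) (x : ι → (H →L[ℂ] H)) :
    st V (∑ i ∈ s, x i) = ∑ i ∈ s, st V (x i) := by
  classical
  induction s using Finset.induction_on with
  | empty => simp [st_zero]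
  | insert a s ha ih => rw [Finset.sum_insert ha, Finset.sum_insert ha, st_add, ih]

theorem st_star (V : EllTwo H) (x : H →L[ℂ] H) : st V (star x) = conj (st V x) := by
  unfold st
  rw [amp_star, BC.inner_star', inner_conj_symm]

theorem st_inner (V : EllTwo H) (x y : H →L[ℂ] H) :
    st V (star x * y) = ⟪amp x V, amp y V⟫_ℂ := by
  unfold st
  rw [amp_mul, amp_star]
  show ⟪V, (star (amp x)) (amp y V)⟫_ℂ = _
  rw [BC.inner_star']

theorem st_self (V : EllTwo H) (x : H →L[ℂ] H) : st V (star x * x) = ((‖amp x V‖ ^ 2 : ℝ) : ℂ) := by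
  rw [st_inner, inner_self_eq_norm_sq_to_K]
  norm_cast

theorem st_self_re (V : EllTwo H) (x : H →L[ℂ] H) : (st V (star x * x)).re = ‖amp x V‖ ^ 2 := by
  rw [st_self, Complex.ofReal_re]

theorem norm_st_self (V : EllTwo H) (x : H →L[ℂ] H) : ‖st V (star x * x)‖ = ‖amp x V‖ ^ 2 := by
  rw [st_self, Complex.norm_real, Real.norm_of_nonneg (by positivity)]

theorem norm_amp_apply_le {V : EllTwo H} (hV : ‖V‖ = 1) (x : H →L[ℂ] H) : ‖amp x V‖ ≤ ‖x‖ := by
  refine ((amp x).le_opNorm V).trans ?_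
  rw [hV, mul_one]
  exact norm_amp_le x

theorem norm_st_mul_le (V : EllTwo H) (x y : H →L[ℂ] H) :
    ‖st V (x * y)‖ ≤ ‖amp (star x) V‖ * ‖amp y V‖ := by
  have h := st_inner V (star x) y
  rw [star_star] at h
  rw [h]
  exact norm_inner_le_norm _ _

theorem norm_st_le {V : EllTwo H} (hV : ‖V‖ = 1) (x : H →L[ℂ] H) : ‖st V x‖ ≤ ‖x‖ := by
  have h := norm_st_mul_le V 1 x
  rw [one_mul, star_one, amp_one] at h
  refine h.trans ?_
  show ‖V‖ * _ ≤ _
  rw [hV, one_mul]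
  exact norm_amp_apply_le hV x

theorem amp_mul_apply (x y : H →L[ℂ] H) (V : EllTwo H) : amp (x * y) V = amp x (amp y V) := rfl

theorem norm_amp_mul_le (x y : H →L[ℂ] H) (V : EllTwo H) :
    ‖amp (x * y) V‖ ≤ ‖x‖ * ‖amp y V‖ := by
  rw [amp_mul_apply]
  exact ((amp x).le_opNorm _).trans (mul_le_mul_of_nonneg_right (norm_amp_le x) (norm_nonneg _))

theorem norm_star_le (x : H →L[ℂ] H) : ‖star x‖ = ‖x‖ := norm_star x

theorem isometry_norm_le {v : H →L[ℂ] H} (h : star v * v = 1) : ‖v‖ ≤ 1 := by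
  refine ContinuousLinearMap.opNorm_le_bound _ zero_le_one fun x => ?_
  have h1 := Cmp.inner_star_mul_self v x
  rw [h] at h1
  have h2 : ⟪x, (1 : H →L[ℂ] H) x⟫_ℂ = (‖x‖ : ℂ) ^ 2 := by
    show ⟪x, x⟫_ℂ = _
    rw [inner_self_eq_norm_sq_to_K]; rfl
  rw [h2] at h1
  have h3 : ‖x‖ ^ 2 = ‖v x‖ ^ 2 := by exact_mod_cast h1
  rw [one_mul]
  exact (pow_le_pow_iff_left₀ (norm_nonneg _) (norm_nonneg _) two_ne_zero).1 h3.ge

theorem isometry_norm_apply {v : H →L[ℂ] H} (h : star v * v = 1) (x : H) : ‖v x‖ = ‖x‖ := by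
  have h1 := Cmp.inner_star_mul_self v x
  rw [h] at h1
  have h2 : ⟪x, (1 : H →L[ℂ] H) x⟫_ℂ = (‖x‖ : ℂ) ^ 2 := by
    show ⟪x, x⟫_ℂ = _
    rw [inner_self_eq_norm_sq_to_K]; rfl
  rw [h2] at h1
  have h3 : ‖x‖ ^ 2 = ‖v x‖ ^ 2 := by exact_mod_cast h1
  exact ((pow_left_inj₀ (norm_nonneg _) (norm_nonneg _) two_ne_zero).1 h3).symm

/-- a mixture of conjugates of two normal states is a normal state -/
theorem isNormalState_mix {M : VonNeumannAlgebra H} {V W : EllTwo H} (hV : ‖V‖ = 1)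
    (hW : ‖W‖ = 1) {v1 v2 : H →L[ℂ] H} (h1 : star v1 * v1 = 1) (h2 : star v2 * v2 = 1)
    {s t : ℝ} (hs : 0 ≤ s) (ht : 0 ≤ t) (hst : s + t = 1) :
    IsNormalState M fun x => s * st V (star v1 * x * v1) + t * st W (star v2 * x * v2) := by
  let g : ℕ ⊕ ℕ → H := Sum.elim (fun i => ((Real.sqrt s : ℝ) : ℂ) • v1 (V i))
    (fun i => ((Real.sqrt t : ℝ) : ℂ) • v2 (W i))
  have hn : ∀ {r : ℝ}, 0 ≤ r → ∀ {v : H →L[ℂ] H}, star v * v = 1 → ∀ U : EllTwo H, ‖U‖ = 1 →
      HasSum (fun i => ‖((Real.sqrt r : ℝ) : ℂ) • v (U i)‖ ^ 2) r := by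
    intro r hr v hv U hU
    have h := (L2_norm_sq U).mul_left r
    rw [hU] at h
    have e : (fun i => ‖((Real.sqrt r : ℝ) : ℂ) • v (U i)‖ ^ 2) = fun i => r * ‖U i‖ ^ 2 := by
      funext i
      rw [norm_smul, mul_pow, Complex.norm_real, Real.norm_of_nonneg (Real.sqrt_nonneg r),
        Real.sq_sqrt hr, isometry_norm_apply hv]
    rw [e]
    simpa using h
  have hi : ∀ {r : ℝ}, 0 ≤ r → ∀ (v : H →L[ℂ] H) (U : EllTwo H) (x : H →L[ℂ] H),
      HasSum (fun i => ⟪((Real.sqrt r : ℝ) : ℂ) • v (U i), x (((Real.sqrt r : ℝ) : ℂ) • v (U i))⟫_ℂ)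
        (r * st U (star v * x * v)) := by
    intro r hr v U x
    have h := (lp.hasSum_inner (𝕜 := ℂ) U (amp (star v * x * v) U)).mul_left (r : ℂ)
    have e : (fun i => ⟪((Real.sqrt r : ℝ) : ℂ) • v (U i), x (((Real.sqrt r : ℝ) : ℂ) • v (U i))⟫_ℂ) =
        fun i => (r : ℂ) * ⟪U i, amp (star v * x * v) U i⟫_ℂ := by
      funext i
      rw [map_smul, inner_smul_left, inner_smul_right, Complex.conj_ofReal, ← mul_assoc,
        ← Complex.ofReal_mul, Real.mul_self_sqrt hr, amp_apply]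
      congr 1
      show _ = ⟪U i, (star v) (x (v (U i)))⟫_ℂ
      rw [BC.inner_star']
    rw [e]
    exact h
  refine ⟨fun n => g (Equiv.natSumNatEquivNat.symm n), ?_, fun x _ => ?_⟩
  · have h3 : HasSum (fun i => ‖g i‖ ^ 2) (s + t) :=
      HasSum.sum (f := fun i => ‖g i‖ ^ 2) (hn hs h1 V hV) (hn ht h2 W hW)
    rw [hst] at h3
    exact (Equiv.natSumNatEquivNat.symm.hasSum_iff (f := fun i => ‖g i‖ ^ 2)).2 h3
  · have h3 : HasSum (fun i => ⟪g i, x (g i)⟫_ℂ)
        (s * st V (star v1 * x * v1) + t * st W (star v2 * x * v2)) :=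
      HasSum.sum (f := fun i => ⟪g i, x (g i)⟫_ℂ) (hi hs v1 V x) (hi ht v2 W x)
    exact (Equiv.natSumNatEquivNat.symm.hasSum_iff (f := fun i => ⟪g i, x (g i)⟫_ℂ)).2 h3

/-- `φ` is the restriction of `st V` -/
theorem exists_st {M : VonNeumannAlgebra H} {ω : (H →L[ℂ] H) → ℂ} (hω : IsNormalState M ω) :
    ∃ V : EllTwo H, ‖V‖ = 1 ∧ ∀ x ∈ M, ω x = st V x := PD.exists_vec hω

/-- type III₁ factors with a faithful normal state contain two isometries with orthogonal ranges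
and sum of the range projections `1` -/
theorem exists_isometries {M : VonNeumannAlgebra H} (hM : IsTypeIIIOneFactor M)
    {φ : (H →L[ℂ] H) → ℂ} (hφ : IsNormalState M φ) (hf : IsFaithful M φ) :
    ∃ v1 ∈ M, ∃ v2 ∈ M, star v1 * v1 = 1 ∧ star v2 * v2 = 1 ∧ v1 * star v1 + v2 * star v2 = 1 ∧
      star v1 * v2 = 0 ∧ star v2 * v1 = 0 := by
  have hS : ∀ t : ℝ, 0 < t → t ∈ connesS M := fun t ht =>
    connesInvariant_subset (by rw [hM.connes]; exact ht.le)
  have hIII := isTypeIII_of_connesS hM.factor hS hφ hf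
  have hAll := isTypeIII_of_state hM.factor hφ hf hIII
  have h10 : (1 : H →L[ℂ] H) ≠ 0 := by
    intro h
    obtain ⟨V, hV, hst⟩ := exists_st hφ
    have h1 := st_one hV
    rw [h, st_zero] at h1
    exact zero_ne_one h1
  have h1 := hIII 1 (one_mem M) (star_one _) (one_mul 1) h10
  unfold IsFiniteProj at h1
  push Not at h1
  obtain ⟨f, hfM, hfs, hff, -, ⟨v, hvM, hv1, hv2⟩, hne⟩ := h1
  have hf0 : f ≠ 0 := by
    intro h
    rw [h] at hv2
    have h3 : v = 0 := by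
      have h4 : v * (star v * v) = 0 := by rw [← mul_assoc, hv2, zero_mul]
      rwa [hv1, mul_one] at h4
    rw [h3, star_zero, zero_mul] at hv1
    exact h10 hv1.symm
  have hg0 : (1 : H →L[ℂ] H) - f ≠ 0 := fun h => hne (sub_eq_zero.1 h).symm
  obtain ⟨a, haM, ha1, ha2⟩ := hAll f hfM hfs hff hf0
  obtain ⟨b, hbM, hb1, hb2⟩ := hAll (1 - f) (sub_mem (one_mem M) hfM)
    (by rw [star_sub, star_one, hfs]) (by rw [mul_sub, sub_mul, sub_mul, hff]; simp) hg0
  have ea : a * f = a := by rw [← ha1, ← mul_assoc, ha2, one_mul]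
  have eb : b * (1 - f) = b := by rw [← hb1, ← mul_assoc, hb2, one_mul]
  have ebf : b * f = 0 := by
    rw [← eb, mul_assoc, sub_mul, one_mul, hff, sub_self, mul_zero]
  have e1 : b * star a = 0 := by
    have : star a = f * star a := by
      conv_lhs => rw [← ea]
      rw [star_mul, hfs]
    rw [this, ← mul_assoc, ebf, zero_mul]
  refine ⟨star a, star_mem haM, star b, star_mem hbM, by rw [star_star, ha2],
    by rw [star_star, hb2], by rw [star_star, star_star, ha1, hb1]; abel, ?_, ?_⟩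
  · rw [star_star]
    have := congrArg star e1
    rwa [star_mul, star_star, star_zero] at this
  · rw [star_star, e1]

end Vale.Agent.P132.H8
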