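import Vale.Agent.P132.H8.Avg

/-!
# P132: asymptotic intertwiners of two faithful normal states
-/

open Filter Topology
open scoped ComplexConjugate InnerProductSpace

namespace Vale.Agent.P132.H8

universe u

variable {H : Type u} [NormedAddCommGroup H] [InnerProductSpace ℂ H] [CompleteSpace H]
variable {M : VonNeumannAlgebra H} {V W : EllTwo H}

/-- the key inequality -/
theorem key_left (hV : ‖V‖ = 1) {lam δ ε B ρ μ : ℝ} (hl : 0 < lam) (hμ : 0 ≤ μ) (hB : 0 ≤ B)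
    (hδ : 0 ≤ δ) {n : ℕ} {c : Fin n → ℝ}
    {Y : Fin n → (H →L[ℂ] H)} (hc0 : ∀ i, 0 ≤ c i) (hc1 : ∑ i, c i = 1)
    (hY : ∀ i, Y i ∈ M ∧ ‖Y i‖ ≤ 1) (hI : ∀ i, Int M V W lam δ (Y i))
    (hA : ‖amp (∑ i, (c i : ℂ) • (Y i * star (Y i)) - (μ : ℂ) • 1) V‖ ≤ ε)
    {T : H →L[ℂ] H} (hT : T ∈ M) (hTB : ‖T‖ ≤ B) (hρ : ∀ i, ‖amp (T * Y i) W‖ ^ 2 ≤ ρ) :
    μ * ‖amp T V‖ ^ 2 ≤ lam⁻¹ * (ρ + δ * B ^ 2) + B ^ 2 * ε := by
  set P : H →L[ℂ] H := ∑ i, (c i : ℂ) • (Y i * star (Y i)) with hP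
  have hTT : ‖star T * T‖ ≤ B ^ 2 := by
    calc ‖star T * T‖ ≤ ‖star T‖ * ‖T‖ := norm_mul_le _ _
      _ ≤ B * B := by rw [norm_star]; gcongr
      _ = B ^ 2 := by ring
  have h1 : ∀ i, ‖st V (star T * T * (Y i * star (Y i)))‖ ≤ lam⁻¹ * (ρ + δ * B ^ 2) := by
    intro i
    have e1 : st V (star T * T * (Y i * star (Y i))) =
        conj (st V (Y i * (star (Y i) * (star T * T)))) := by
      rw [← st_star]
      congr 1
      rw [star_mul, star_mul, star_mul, star_star, star_star]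
      simp only [mul_assoc]
    have h2 := hI i (star (Y i) * (star T * T))
      (mul_mem (star_mem (hY i).1) (mul_mem (star_mem hT) hT))
    have h3 : ‖star (Y i) * (star T * T)‖ ≤ B ^ 2 := by
      calc ‖star (Y i) * (star T * T)‖ ≤ ‖star (Y i)‖ * ‖star T * T‖ := norm_mul_le _ _
        _ ≤ 1 * B ^ 2 := by
            rw [norm_star]
            exact mul_le_mul (hY i).2 hTT (norm_nonneg _) zero_le_one
        _ = B ^ 2 := one_mul _
    have e2 : st W (star (Y i) * (star T * T) * Y i) = ((‖amp (T * Y i) W‖ ^ 2 : ℝ) : ℂ) := by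
      rw [← st_self]
      congr 1
      rw [star_mul]
      simp only [mul_assoc]
    rw [e2] at h2
    have h4 : ‖(lam : ℂ) * st V (Y i * (star (Y i) * (star T * T)))‖ ≤ ρ + δ * B ^ 2 := by
      have h5 := norm_sub_norm_le ((lam : ℂ) * st V (Y i * (star (Y i) * (star T * T))))
        ((‖amp (T * Y i) W‖ ^ 2 : ℝ) : ℂ)
      rw [norm_sub_rev] at h5
      have h6 : ‖((‖amp (T * Y i) W‖ ^ 2 : ℝ) : ℂ)‖ ≤ ρ := by
        rw [Complex.norm_real, Real.norm_of_nonneg (by positivity)]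
        exact hρ i
      have h7 := mul_le_mul_of_nonneg_left h3 hδ
      linarith
    rw [norm_mul, Complex.norm_real, Real.norm_of_nonneg hl.le] at h4
    rw [e1, RCLike.norm_conj]
    rw [← div_eq_inv_mul, le_div_iff₀ hl, mul_comm]
    exact h4
  have h2 : ‖st V (star T * T * P)‖ ≤ lam⁻¹ * (ρ + δ * B ^ 2) := by
    rw [hP, Finset.mul_sum, st_sum]
    refine (norm_sum_le _ _).trans ?_
    calc ∑ i, ‖st V (star T * T * ((c i : ℂ) • (Y i * star (Y i))))‖
        ≤ ∑ i, c i * (lam⁻¹ * (ρ + δ * B ^ 2)) := by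
          refine Finset.sum_le_sum fun i _ => ?_
          rw [mul_smul_comm, st_smul, norm_mul, Complex.norm_real, Real.norm_of_nonneg (hc0 i)]
          exact mul_le_mul_of_nonneg_left (h1 i) (hc0 i)
      _ = _ := by rw [← Finset.sum_mul, hc1, one_mul]
  have h3 : ‖st V (star T * T * (P - (μ : ℂ) • 1))‖ ≤ B ^ 2 * ε := by
    refine (norm_st_mul_le V _ _).trans ?_
    have : ‖amp (star (star T * T)) V‖ ≤ B ^ 2 := by
      refine (norm_amp_apply_le hV _).trans ?_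
      rw [norm_star]; exact hTT
    exact mul_le_mul this hA (norm_nonneg _) (by positivity)
  have h4 : ((μ * ‖amp T V‖ ^ 2 : ℝ) : ℂ) = st V (star T * T * P) -
      st V (star T * T * (P - (μ : ℂ) • 1)) := by
    rw [mul_sub, st_sub, mul_smul_comm, mul_one, st_smul, st_self]
    push_cast
    ring
  have h5 : ‖((μ * ‖amp T V‖ ^ 2 : ℝ) : ℂ)‖ = μ * ‖amp T V‖ ^ 2 := by
    rw [Complex.norm_real, Real.norm_of_nonneg (by positivity)]
  rw [← h5, h4]
  exact (norm_sub_le _ _).trans (add_le_add h2 h3)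

/-- the second key inequality -/
theorem key_right {ε r μ : ℝ} (hμ : 0 ≤ μ) {n : ℕ} {c : Fin n → ℝ}
    {w : Fin n → (H →L[ℂ] H)} (hc0 : ∀ i, 0 ≤ c i) (hc1 : ∑ i, c i = 1)
    {T : H →L[ℂ] H}
    (hA : ‖amp (∑ i, (c i : ℂ) • (star (w i) * w i) - (μ : ℂ) • 1) (amp T W)‖ ≤ ε)
    (hρ : ∀ i, ‖amp (w i * T) W‖ ^ 2 ≤ r) :
    μ * ‖amp T W‖ ^ 2 ≤ r + ‖amp T W‖ * ε := by
  set P : H →L[ℂ] H := ∑ i, (c i : ℂ) • (star (w i) * w i) with hP
  have h1 : ∀ i, ‖st W (star T * (star (w i) * w i) * T)‖ ≤ r := by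
    intro i
    have e : star T * (star (w i) * w i) * T = star (w i * T) * (w i * T) := by
      rw [star_mul]; simp only [mul_assoc]
    rw [e, norm_st_self]
    exact hρ i
  have h2 : ‖st W (star T * P * T)‖ ≤ r := by
    rw [hP, Finset.mul_sum, Finset.sum_mul, st_sum]
    refine (norm_sum_le _ _).trans ?_
    calc ∑ i, ‖st W (star T * ((c i : ℂ) • (star (w i) * w i)) * T)‖ ≤ ∑ i, c i * r := by
          refine Finset.sum_le_sum fun i _ => ?_
          rw [mul_smul_comm, smul_mul_assoc, st_smul, norm_mul, Complex.norm_real,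
            Real.norm_of_nonneg (hc0 i)]
          exact mul_le_mul_of_nonneg_left (h1 i) (hc0 i)
      _ = r := by rw [← Finset.sum_mul, hc1, one_mul]
  have h3 : ‖st W (star T * ((P - (μ : ℂ) • 1) * T))‖ ≤ ‖amp T W‖ * ε := by
    rw [st_inner]
    refine (norm_inner_le_norm _ _).trans ?_
    exact mul_le_mul_of_nonneg_left hA (norm_nonneg _)
  have h4 : ((μ * ‖amp T W‖ ^ 2 : ℝ) : ℂ) = st W (star T * P * T) -
      st W (star T * ((P - (μ : ℂ) • 1) * T)) := by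
    rw [sub_mul, mul_sub, st_sub, smul_mul_assoc, one_mul, mul_smul_comm, st_smul, st_self,
      mul_assoc]
    push_cast
    ring
  have h5 : ‖((μ * ‖amp T W‖ ^ 2 : ℝ) : ℂ)‖ = μ * ‖amp T W‖ ^ 2 := by
    rw [Complex.norm_real, Real.norm_of_nonneg (by positivity)]
  rw [← h5, h4]
  exact (norm_sub_le _ _).trans (add_le_add h2 h3)

/-- the hypothesis of the theorem on two states -/
def Hyp (M : VonNeumannAlgebra H) (V W : EllTwo H) (lam : ℝ) (a b : H →L[ℂ] H) : Prop :=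
  ∀ w : ℕ → (H →L[ℂ] H), (∀ n, w n ∈ M) → (∃ C : ℝ, ∀ n, ‖w n‖ ≤ C) →
    (∀ ε : ℝ, 0 < ε → ∀ᶠ n in atTop, ∀ y ∈ M, ‖y‖ ≤ 1 →
      ‖st W (y * w n) - lam * st V (w n * y)‖ ≤ ε) →
    ∀ ζ : H, Tendsto (fun n => (a * w n - w n * b) ζ) atTop (𝓝 0)

/-- uniform version of the hypothesis -/
theorem uniform {lam : ℝ} {a b : H →L[ℂ] H} (h : Hyp M V W lam a b) {C ε : ℝ}
    (hε : 0 < ε) : ∃ δ > 0, ∀ w ∈ M, ‖w‖ ≤ C → Int M V W lam δ w →
      ‖amp (a * w - w * b) W‖ ≤ ε := by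
  by_contra hcon
  push Not at hcon
  have hp : ∀ n : ℕ, (0 : ℝ) < 1 / ((n : ℝ) + 1) := fun n => by positivity
  choose w hw hwC hwI hwε using fun n : ℕ => hcon (1 / ((n : ℝ) + 1)) (hp n)
  have h1 := h w hw ⟨C, hwC⟩ (fun η hη => by
    have h2 : ∀ᶠ n : ℕ in atTop, 1 / ((n : ℝ) + 1) < η :=
      tendsto_one_div_add_atTop_nhds_zero_nat.eventually (gt_mem_nhds hη)
    filter_upwards [h2] with n hn y hy hy1
    refine (hwI n y hy).trans ?_
    calc 1 / ((n : ℝ) + 1) * ‖y‖ ≤ 1 / ((n : ℝ) + 1) * 1 :=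
          mul_le_mul_of_nonneg_left hy1 (hp n).le
      _ ≤ η := by rw [mul_one]; exact hn.le)
  have h2 := amp_strong (fun n => a * w n - w n * b) (‖a‖ * C + C * ‖b‖) (fun n => by
    refine (norm_sub_le _ _).trans (add_le_add ?_ ?_)
    · exact (norm_mul_le _ _).trans (mul_le_mul_of_nonneg_left (hwC n) (norm_nonneg _))
    · exact (norm_mul_le _ _).trans (mul_le_mul_of_nonneg_right (hwC n) (norm_nonneg _))) h1 W
  have h3 := (tendsto_zero_iff_norm_tendsto_zero.1 h2).eventually (gt_mem_nhds hε)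
  obtain ⟨n, hn⟩ := h3.exists
  exact absurd hn (not_lt.2 (hwε n).le)

theorem exists_small {K r : ℝ} (hK : 0 ≤ K) (hr : 0 < r) : ∃ ε > 0, K * ε ≤ r := by
  refine ⟨r / (K + 1), by positivity, ?_⟩
  rw [mul_div_assoc', div_le_iff₀ (by positivity)]
  nlinarith

theorem left_mem (hM : IsTypeIIIOneFactor M) (hV : Sep M V) (hW : Sep M W) {lam : ℝ}
    (hl : 0 < lam) {a b : H →L[ℂ] H} (ha : a ∈ M) (h : Hyp M V W lam a b) :
    a ∈ bicentralizer M (st V) := by
  refine ⟨ha, fun x hx hxC hxc ζ => ?_⟩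
  obtain ⟨C₀, hC₀⟩ := hxC
  set C : ℝ := max C₀ 1 with hCdef
  have hC1 : 1 ≤ C := le_max_right _ _
  have hC : ∀ n, ‖x n‖ ≤ C := fun n => (hC₀ n).trans (le_max_left _ _)
  have hC0 : 0 ≤ C := zero_le_one.trans hC1
  set B : ℝ := 2 * ‖a‖ * C with hB
  have hB0 : 0 ≤ B := by positivity
  have hTM : ∀ n, a * x n - x n * a ∈ M := fun n =>
    sub_mem (mul_mem ha (hx n)) (mul_mem (hx n) ha)
  have hTB : ∀ n, ‖a * x n - x n * a‖ ≤ B := by
    intro n
    refine (norm_sub_le _ _).trans ?_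
    have h1 : ‖a * x n‖ ≤ ‖a‖ * C :=
      (norm_mul_le _ _).trans (mul_le_mul_of_nonneg_left (hC n) (norm_nonneg _))
    have h2 : ‖x n * a‖ ≤ C * ‖a‖ :=
      (norm_mul_le _ _).trans (mul_le_mul_of_nonneg_right (hC n) (norm_nonneg _))
    rw [hB]; linarith
  -- smallness of the norms
  have main : ∀ r : ℝ, 0 < r → ∀ᶠ n in atTop, ‖amp (a * x n - x n * a) V‖ ^ 2 ≤ r := by
    intro r hr
    have hμ : 0 < (1 + lam)⁻¹ := by positivity
    obtain ⟨e0, he0, he0'⟩ := exists_small (K := lam⁻¹ * (1 + C) ^ 2) (r := (1 + lam)⁻¹ * r / 3)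
      (by positivity) (by positivity)
    -- ε₁ ^ 2 ≤ e0
    set ε₁ : ℝ := Real.sqrt e0 with hε₁
    have hε₁0 : 0 < ε₁ := Real.sqrt_pos.2 he0
    have hε₁2 : ε₁ ^ 2 = e0 := Real.sq_sqrt he0.le
    obtain ⟨δ, hδ, hU⟩ := uniform h (C := C) hε₁0
    obtain ⟨d2, hd2, hd2'⟩ := exists_small (K := lam⁻¹ * B ^ 2) (r := (1 + lam)⁻¹ * r / 3)
      (by positivity) (by positivity)
    obtain ⟨d3, hd3, hd3'⟩ := exists_small (K := 2 * C) (r := δ) (by positivity) hδ
    obtain ⟨d4, hd4, hd4'⟩ := exists_small (K := 2 * lam) (r := δ) (by positivity) hδ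
    obtain ⟨ε₂, hε₂, hε₂'⟩ := exists_small (K := B ^ 2) (r := (1 + lam)⁻¹ * r / 3)
      (by positivity) (by positivity)
    set δ₂ : ℝ := min d2 d3 with hδ₂
    have hδ₂0 : 0 < δ₂ := lt_min hd2 hd3
    have hδ₂δ : δ₂ ≤ δ := by
      have h1 : δ₂ ≤ d3 := min_le_right _ _
      nlinarith
    obtain ⟨m, c, Y, hc0, hc1, hY, hI, hA⟩ := exists_avg hM hV hW hl hδ₂0 hε₂
    filter_upwards [hxc d4 hd4] with n hn
    have hnI : ∀ y ∈ M, ‖st V (y * x n) - st V (x n * y)‖ ≤ d4 * ‖y‖ := by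
      intro y hy
      rcases eq_or_ne y 0 with h0 | h0
      · subst h0; simp [st_zero]
      · have hy0 : 0 < ‖y‖ := norm_pos_iff.2 h0
        have h1 : ((‖y‖⁻¹ : ℝ) : ℂ) • y ∈ M := M.toStarSubalgebra.smul_mem hy _
        have h2 := hn _ h1 (by
          rw [norm_smul, Complex.norm_real, norm_inv, norm_norm, inv_mul_cancel₀ hy0.ne'])
        rw [smul_mul_assoc, mul_smul_comm, st_smul, st_smul, ← mul_sub, norm_mul,
          Complex.norm_real, norm_inv, norm_norm, inv_mul_le_iff₀ hy0] at h2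
        linarith
    have hρ : ∀ i, ‖amp ((a * x n - x n * a) * Y i) W‖ ^ 2 ≤ (1 + C) ^ 2 * e0 := by
      intro i
      have i1 : Int M V W lam δ (x n * Y i) := by
        intro y hy
        have h1 := hI i (y * x n) (mul_mem hy (hx n))
        have h2 := hnI (Y i * y) (mul_mem (hY i).1 hy)
        have e1 : st W (y * (x n * Y i)) - (lam : ℂ) * st V (x n * Y i * y) =
            (st W (y * x n * Y i) - (lam : ℂ) * st V (Y i * (y * x n))) +
              (lam : ℂ) * (st V (Y i * y * x n) - st V (x n * (Y i * y))) := by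
          have a1 : y * (x n * Y i) = y * x n * Y i := by rw [mul_assoc]
          have a2 : x n * Y i * y = x n * (Y i * y) := by rw [mul_assoc]
          have a3 : Y i * (y * x n) = Y i * y * x n := by rw [mul_assoc]
          rw [a1, a2, a3]; ring
        rw [e1]
        refine (norm_add_le _ _).trans ?_
        rw [norm_mul, Complex.norm_real, Real.norm_of_nonneg hl.le]
        have n1 : ‖y * x n‖ ≤ ‖y‖ * C :=
          (norm_mul_le _ _).trans (mul_le_mul_of_nonneg_left (hC n) (norm_nonneg _))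
        have n2 : ‖Y i * y‖ ≤ ‖y‖ := by
          refine (norm_mul_le _ _).trans ?_
          calc ‖Y i‖ * ‖y‖ ≤ 1 * ‖y‖ := mul_le_mul_of_nonneg_right (hY i).2 (norm_nonneg _)
            _ = ‖y‖ := one_mul _
        have m1 : δ₂ * ‖y * x n‖ ≤ δ / 2 * ‖y‖ := by
          calc δ₂ * ‖y * x n‖ ≤ d3 * (‖y‖ * C) :=
                mul_le_mul (min_le_right _ _) n1 (norm_nonneg _) hd3.le
            _ = (2 * C * d3) / 2 * ‖y‖ := by ring
            _ ≤ δ / 2 * ‖y‖ := by gcongr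
        have m2 : lam * (d4 * ‖Y i * y‖) ≤ δ / 2 * ‖y‖ := by
          calc lam * (d4 * ‖Y i * y‖) ≤ lam * (d4 * ‖y‖) := by gcongr
            _ = (2 * lam * d4) / 2 * ‖y‖ := by ring
            _ ≤ δ / 2 * ‖y‖ := by gcongr
        calc _ ≤ δ₂ * ‖y * x n‖ + lam * (d4 * ‖Y i * y‖) :=
              add_le_add h1 (mul_le_mul_of_nonneg_left h2 hl.le)
          _ ≤ δ * ‖y‖ := by linarith
      have n3 : ‖x n * Y i‖ ≤ C := by
        refine (norm_mul_le _ _).trans ?_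
        calc ‖x n‖ * ‖Y i‖ ≤ C * 1 := mul_le_mul (hC n) (hY i).2 (norm_nonneg _) hC0
          _ = C := mul_one _
      have u1 := hU _ (mul_mem (hx n) (hY i).1) n3 i1
      have u2 := hU _ (hY i).1 ((hY i).2.trans hC1) ((hI i).mono hδ₂δ)
      have e2 : (a * x n - x n * a) * Y i =
          (a * (x n * Y i) - x n * Y i * b) - x n * (a * Y i - Y i * b) := by
        rw [sub_mul, mul_sub]
        simp only [mul_assoc]
        abel
      have u3 : ‖amp ((a * x n - x n * a) * Y i) W‖ ≤ (1 + C) * ε₁ := by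
        have u4 : ‖amp (x n * (a * Y i - Y i * b)) W‖ ≤ C * ε₁ :=
          (norm_amp_mul_le _ _ _).trans (mul_le_mul (hC n) u2 (norm_nonneg _) hC0)
        have e3 : amp ((a * x n - x n * a) * Y i) W =
            amp (a * (x n * Y i) - x n * Y i * b) W - amp (x n * (a * Y i - Y i * b)) W := by
          rw [e2, amp_sub]; rfl
        rw [e3]
        refine (norm_sub_le _ _).trans ?_
        linarith
      calc ‖amp ((a * x n - x n * a) * Y i) W‖ ^ 2 ≤ ((1 + C) * ε₁) ^ 2 :=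
            pow_le_pow_left₀ (norm_nonneg _) u3 2
        _ = (1 + C) ^ 2 * e0 := by rw [mul_pow, hε₁2]
    have hk := key_left hV.norm hl hμ.le hB0 hδ₂0.le hc0 hc1 hY hI hA (hTM n) (hTB n) hρ
    have k1 : lam⁻¹ * ((1 + C) ^ 2 * e0) ≤ (1 + lam)⁻¹ * r / 3 := by
      rw [← mul_assoc]; exact he0'
    have k2 : lam⁻¹ * (δ₂ * B ^ 2) ≤ (1 + lam)⁻¹ * r / 3 := by
      calc lam⁻¹ * (δ₂ * B ^ 2) ≤ lam⁻¹ * (d2 * B ^ 2) := by
            have : δ₂ ≤ d2 := min_le_left _ _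
            gcongr
        _ = lam⁻¹ * B ^ 2 * d2 := by ring
        _ ≤ _ := hd2'
    have k3 : (1 + lam)⁻¹ * ‖amp (a * x n - x n * a) V‖ ^ 2 ≤ (1 + lam)⁻¹ * r := by
      have hk' : (1 + lam)⁻¹ * ‖amp (a * x n - x n * a) V‖ ^ 2 ≤
          lam⁻¹ * ((1 + C) ^ 2 * e0) + lam⁻¹ * (δ₂ * B ^ 2) + B ^ 2 * ε₂ := by
        rw [← mul_add]; exact hk
      linarith
    exact le_of_mul_le_mul_left k3 hμ
  rw [Metric.tendsto_nhds]
  intro ε hε
  obtain ⟨η, hη, hsm⟩ := strong_small (M := M) (isNormal_st hV.norm) hV.faithful ζ B (half_pos hε)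
  filter_upwards [main η hη] with n hn
  rw [dist_zero_right]
  refine (hsm _ (hTM n) (hTB n) ?_).trans_lt (half_lt_self hε)
  rw [norm_st_self]
  exact hn

theorem right_eq (hM : IsTypeIIIOneFactor M) (hV : Sep M V) (hW : Sep M W) {lam : ℝ}
    (hl : 0 < lam) {b : H →L[ℂ] H} (hb : b ∈ M) {c₀ : ℂ} (h : Hyp M V W lam (c₀ • 1) b) :
    b = c₀ • 1 := by
  set T : H →L[ℂ] H := c₀ • 1 - b with hT
  have hTM : T ∈ M := sub_mem (M.toStarSubalgebra.smul_mem (one_mem M) _) hb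
  set μ : ℝ := (1 + lam⁻¹)⁻¹ with hμd
  have hμ : 0 < μ := by positivity
  have hμ1 : μ ≤ 1 := by
    rw [hμd]
    apply inv_le_one_of_one_le₀
    have : 0 < lam⁻¹ := by positivity
    linarith
  have main : ∀ r : ℝ, 0 < r → μ * ‖amp T W‖ ^ 2 ≤ r := by
    intro r hr
    obtain ⟨e3, he3, he3'⟩ := exists_small (K := ‖amp T W‖) (r := r / 2) (norm_nonneg _)
      (by positivity)
    obtain ⟨δ, hδ, hU⟩ := uniform h (C := 1) (Real.sqrt_pos.2 (half_pos hr))
    obtain ⟨η, hη, hsm⟩ := amp_small (M := M) (isNormal_st hW.norm) hW.faithful (amp T W) 2 he3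
    obtain ⟨m, c, Y, hc0, hc1, hY, hI, hA⟩ := exists_avg hM hW hV (lam := lam⁻¹) (by positivity)
      (δ := lam⁻¹ * δ) (ε := Real.sqrt η) (by positivity) (Real.sqrt_pos.2 hη)
    set P : H →L[ℂ] H := ∑ i, (c i : ℂ) • (Y i * star (Y i)) with hP
    have hPM : P ∈ M := sum_mem fun i _ => M.toStarSubalgebra.smul_mem
      (mul_mem (hY i).1 (star_mem (hY i).1)) _
    have hPn : ‖P‖ ≤ 1 := by
      rw [hP]
      refine (norm_sum_le _ _).trans ?_
      calc ∑ i, ‖(c i : ℂ) • (Y i * star (Y i))‖ ≤ ∑ i, c i * 1 := by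
            refine Finset.sum_le_sum fun i _ => ?_
            rw [norm_smul, Complex.norm_real, Real.norm_of_nonneg (hc0 i)]
            refine mul_le_mul_of_nonneg_left ?_ (hc0 i)
            refine (norm_mul_le _ _).trans ?_
            rw [norm_star]
            have := (hY i).2
            nlinarith [norm_nonneg (Y i)]
        _ = 1 := by rw [← Finset.sum_mul, hc1, one_mul]
    have hS : ‖amp (P - ((μ : ℝ) : ℂ) • 1) (amp T W)‖ ≤ e3 := by
      apply hsm _ (sub_mem hPM (M.toStarSubalgebra.smul_mem (one_mem M) _))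
      · refine (norm_sub_le _ _).trans ?_
        have : ‖((μ : ℝ) : ℂ) • (1 : H →L[ℂ] H)‖ ≤ 1 := by
          rw [norm_smul, Complex.norm_real, Real.norm_of_nonneg hμ.le]
          calc μ * ‖(1 : H →L[ℂ] H)‖ ≤ 1 * 1 :=
                mul_le_mul hμ1 (ContinuousLinearMap.norm_id_le) (norm_nonneg _) zero_le_one
            _ = 1 := one_mul 1
        linarith
      · rw [norm_st_self]
        calc ‖amp (P - ((μ : ℝ) : ℂ) • 1) W‖ ^ 2 ≤ Real.sqrt η ^ 2 :=
              pow_le_pow_left₀ (norm_nonneg _) hA 2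
          _ = η := Real.sq_sqrt hη.le
    have hρ : ∀ i, ‖amp (star (Y i) * T) W‖ ^ 2 ≤ r / 2 := by
      intro i
      have i1 : Int M V W lam δ (star (Y i)) := by
        have h1 := (hI i).adj hl
        have e : lam * (lam⁻¹ * δ) = δ := by field_simp
        rwa [e] at h1
      have u1 := hU _ (star_mem (hY i).1) (by rw [norm_star]; exact (hY i).2) i1
      have e1 : (c₀ • (1 : H →L[ℂ] H)) * star (Y i) - star (Y i) * b = star (Y i) * T := by
        rw [hT, mul_sub]; simp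
      rw [e1] at u1
      calc ‖amp (star (Y i) * T) W‖ ^ 2 ≤ Real.sqrt (r / 2) ^ 2 :=
            pow_le_pow_left₀ (norm_nonneg _) u1 2
        _ = r / 2 := Real.sq_sqrt (by positivity)
    have hk := key_right (W := W) (T := T) (w := fun i => star (Y i)) (ε := e3) (r := r / 2)
      hμ.le hc0 hc1 (by simpa only [star_star] using hS) hρ
    linarith
  have h0 : ‖amp T W‖ ^ 2 = 0 := by
    by_contra hne
    have hpos : 0 < ‖amp T W‖ ^ 2 := lt_of_le_of_ne (by positivity) (Ne.symm hne)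
    have h1 := main (μ * ‖amp T W‖ ^ 2 / 2) (by positivity)
    have h2 : 0 < μ * ‖amp T W‖ ^ 2 := by positivity
    linarith
  have h1 := hW.sep T hTM (norm_eq_zero.1 ((pow_eq_zero_iff two_ne_zero).1 h0))
  rw [hT, sub_eq_zero] at h1
  exact h1.symm

end Vale.Agent.P132.H8
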